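import Vale.Agent.P330.S.H175.Cb

/-!
Polynomial time computability of the static contents, of the start configuration and of the
hard-wired bits.
-/

namespace Vale.Agent.P330.S.H175

open Finset Vale.Agent.Lib.PolyTime Mach

variable {r : ℕ} {A : Set Word} {α β γ : Type*} [Enc α] [Enc β] [Enc γ]

/-- The parameters of the machine are computable in polynomial time. -/
structure PrmPT (A : Set Word) (P : α → Prm) : Prop where
  n : PT A (fun a => (P a).n)
  W : PT A (fun a => (P a).W)
  R : PT A (fun a => (P a).R)
  prog : ∀ (k : Bool) (q : PI), PT A (fun x : α × ℕ => decide ((P x.1).prog k x.2 = q))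

theorem st_mk_eq {z z' : Zone} {a b c d a' b' c' d' : Bool} {p q p' q' : PI} :
    decide (St.mk z a b c d p q = St.mk z' a' b' c' d' p' q') =
      (decide (z = z') && (decide (a = a') && (decide (b = b') && (decide (c = c') &&
        (decide (d = d') && (decide (p = p') && decide (q = q'))))))) := by
  rw [Bool.eq_iff_iff]
  simp only [Bool.and_eq_true, decide_eq_true_eq, St.mk.injEq]

theorem cell_mk_eq {s s' : St} {p p' : Ph} {h h' : Bool} {a b a' b' : Option Con} :
    decide (Cell.mk s p h a b = Cell.mk s' p' h' a' b') =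
      (decide (s = s') && (decide (p = p') && (decide (h = h') && (decide (a = a') &&
        decide (b = b'))))) := by
  rw [Bool.eq_iff_iff]
  simp only [Bool.and_eq_true, decide_eq_true_eq, Cell.mk.injEq]

variable {P : α → Prm}

/-- Static contents. -/
theorem PrmPT.st (h : PrmPT A P) {f : β → α} {p : β → ℕ} (hf : PT A f) (hp : PT A p) (s : St) :
    PT A (fun b => decide ((P (f b)).st (p b) = s)) := by
  obtain ⟨z, a, b, c, d, q, q'⟩ := s
  have hn := h.n.comp hf
  have hW := h.W.comp hf
  have hR := h.R.comp hf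
  refine (PT.ite (PT.lt hp hW)
    (f := fun b' => decide (St.mk .row0 (decide (p b' = 0)) (decide (p b' + 1 = (P (f b')).W)) false
      (decide (p b' < (P (f b')).n)) PI.nop PI.nop = St.mk z a b c d q q'))
    ?_ (PT.ite (PT.lt hp (PT.mul hR hW))
      (f := fun b' => decide (St.mk .mid false false (decide (p b' = (P (f b')).W)) false
        ((P (f b')).prog false (p b')) ((P (f b')).prog true (p b')) = St.mk z a b c d q q'))
      ?_ (PT.ite (PT.eqNat hp (PT.mul hR hW))
        (PT.const (decide (St.mk .endd false false false false PI.nop PI.nop =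
          St.mk z a b c d q q')))
        (PT.const (decide (St.deadSt = St.mk z a b c d q q')))))).congr fun b' => ?_
  · refine PT.congr ?_ fun b' => st_mk_eq.symm
    exact (PT.const _).and ((PT_beq (PT.eqNat hp (PT.const 0)) (PT.const _)).and
      ((PT_beq (PT.eqNat (PT.add hp (PT.const 1)) hW) (PT.const _)).and ((PT.const _).and
        ((PT_beq (PT.lt hp hn) (PT.const _)).and ((PT.const _).and (PT.const _))))))
  · refine PT.congr ?_ fun b' => st_mk_eq.symm
    exact (PT.const _).and ((PT.const _).and ((PT.const _).and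
      ((PT_beq (PT.eqNat hp hW) (PT.const _)).and ((PT.const _).and
        (((h.prog false q).comp (hf.pair hp)).and ((h.prog true q').comp (hf.pair hp)))))))
  · unfold Prm.st
    split_ifs <;> rfl

/-- Start configuration. -/
theorem PrmPT.w0 (h : PrmPT A P) {f : β → α} {p : β → ℕ} (hf : PT A f) (hp : PT A p) (c : Cell) :
    PT A (fun b => decide ((P (f b)).w0 (p b) = c)) := by
  obtain ⟨s, ph, hd, cs, cp⟩ := c
  have hW := h.W.comp hf
  refine PT.congr ?_ fun b => cell_mk_eq.symm
  exact (h.st hf hp s).and ((PT.const _).and ((PT_beq (PT.eqNat hp hW) (PT.const _)).and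
    ((PT.congr (PT.ite (PT.lt hp hW) (PT.const (decide (some conD = cs)))
      (PT.const (decide (none = cs)))) fun b => by split_ifs <;> rfl).and (PT.const _))))

variable {L : α → Fin r → ℕ} {B : α → Fin r → List ℕ → Bool}

/-- The hard-wired bit `start c`. -/
theorem PT_start (h : PrmPT A P) (hL : ∀ i, PT A (fun a => L a i)) (hLb : ∀ i, PBd (fun a => L a i))
    (hB : ∀ i, PT A (fun x : α × List ℕ => B x.1 i x.2)) (c : Fin 5 → Cell) :
    PT A (fun a => startN (P a) (∏ i, L a i) (L a) (B a) c) := by
  have h1 : PT A (fun a => tups (∏ i, L a i) 5) := PT_tups (PT_prod hL univ) (PBd_prod hLb univ) 5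
  have h2 : PT A (fun x : α × List ℕ => decide (∀ t : Fin 5,
      decide ((P x.1).w0 (x.2.getD t 0) = c t) = true)) :=
    PT_forall (f := fun (t : Fin 5) (x : α × List ℕ) => decide ((P x.1).w0 (x.2.getD t 0) = c t))
      fun t => h.w0 PT.fst' (PT.getD PT.snd' (PT.const _) (PT.const 0)) (c t)
  have h3 : PT A (fun x : α × List ℕ => decide (∀ i, B x.1 i (x.2.map (· % L x.1 i)) = true)) :=
    PT_forall (f := fun (i : Fin r) (x : α × List ℕ) => B x.1 i (x.2.map (· % L x.1 i)))
      fun i => (hB i).comp (PT.fst'.pair (PT.map (f := fun (x : α × List ℕ) y => y % L x.1 i) PT.snd'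
      (PT.mod PT.snd' ((hL i).comp PT.fst'.fst))))
  exact PT_parity h1 (h2.and h3)

/-- The hard-wired bit `stat q`. -/
theorem PT_stat (h : PrmPT A P) (hL : ∀ i, PT A (fun a => L a i)) (hLb : ∀ i, PBd (fun a => L a i))
    (hB : ∀ i, PT A (fun x : α × List ℕ => B x.1 i x.2)) (q : St) :
    PT A (fun a => statN (P a) (∏ i, L a i) (L a) (B a) q) := by
  unfold statN
  refine PT_parity (f := fun a p => decide ((P a).st p = q) &&
    decide (∀ i, B a i [p % L a i, 0, 0, 0, 0] = true))
    (PT.range (PT_prod hL univ) (PBd_prod hLb univ)) ?_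
  refine (h.st PT.fst' PT.snd' q).and (PT_forall fun i => ?_)
  exact (hB i).comp (PT.fst'.pair ((PT.mod PT.snd' ((hL i).comp PT.fst')).cons (PT.const _)))

end Vale.Agent.P330.S.H175
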