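import Vale.Agent.P330.S.H175.CbN

/-!
The hard-wired bits as total functions of the parameters, the block lengths and the number of the
site.
-/

namespace Vale.Agent.P330.S.H175

open Finset Vale.Agent.Lib.PolyTime Mach

variable {r : ℕ} {A : Set Word} {α β γ : Type*} [Enc α] [Enc β] [Enc γ]

/-- The bit with the index `l` of the block `i` of the table argument of the site `n`. -/
def bitT (L : Fin r → ℕ) (n : ℕ) (i : Fin r) (l : List ℕ) : Bool :=
  (n / 2 ^ ∑ i, L i ^ 5).testBit ((∑ j : Fin (i : ℕ), L (Fin.castLE i.2.le j) ^ 5) +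
    ∑ t : Fin 5, l.getD t 0 % L i * L i ^ (t : ℕ))

theorem bitL_eq {P : Prm} {L : Fin r → ℕ} (h : Good P L) (n : ℕ) (i : Fin r) (l : List ℕ) :
    bitL h n i l = bitT L n i l := rfl

/-- The hard-wired bits at the sites, for any parameters. -/
noncomputable def cbT (P : Prm) (L : Fin r → ℕ) (κ : CB spec) (n : ℕ) : Bool :=
  match κ with
  | .start c => startN P (∏ i, L i) L (bitT L n) c
  | .stat q => statN P (∏ i, L i) L (bitT L n) q

theorem cbT_num {P : Prm} {L : Fin r → ℕ} (h : Good P L) (κ : CB spec) (ω : (mkInst P L h).Site) :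
    cbT P L κ ((mkInst P L h).num ω) = (mkInst P L h).cb κ ω := by
  rw [← cbN_num h]
  cases κ <;> rfl

/-- **Hard-wired bits in polynomial time.** -/
theorem PT_cbT {P : α → Prm} {L : α → Fin r → ℕ} (h : PrmPT A P) (hL : ∀ i, PT A (fun a => L a i))
    (hV : PBd (fun a => 2 ^ ∑ i, L a i ^ 5)) (κ : CB spec) {n : α → ℕ} (hn : PT A n) :
    PT A (fun a => cbT (P a) (L a) κ (n a)) := by
  have he : PT A (fun a => ∑ i, L a i ^ 5) := PT_sum (fun i => PT.powConst (hL i) 5) univ
  have heb : PBd (fun a => ∑ i, L a i ^ 5) := hV.mono fun _ => Nat.lt_two_pow_self.le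
  have hLb : ∀ i, PBd (fun a => L a i) := fun i => heb.mono fun a =>
    (Nat.le_self_pow (by omega) _).trans
      (Finset.single_le_sum (f := fun i => L a i ^ 5) (fun _ _ => Nat.zero_le _) (mem_univ i))
  have heb' : PBd (fun x : α × List ℕ => ∑ i, L x.1 i ^ 5) :=
    PBd.comp (A := A) (b := fun a => ∑ i, L a i ^ 5) heb PT.fst'
  have hB : ∀ i, PT A (fun x : α × List ℕ => bitT (L x.1) (n x.1) i x.2) := fun i => by
    refine PT.testBit (PT.div (hn.comp PT.fst') (PT.pow (PT.const 2) (he.comp PT.fst')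
      heb')) (PT.add ?_ ?_)
    · exact PT_sum (fun j => PT.powConst ((hL _).comp PT.fst') 5) univ
    · exact PT_sum (fun t => PT.mul (PT.mod (PT.getD PT.snd' (PT.const _) (PT.const 0))
        ((hL i).comp PT.fst')) (PT.powConst ((hL i).comp PT.fst') _)) univ
  cases κ with
  | start c => exact PT_start (B := fun a => bitT (L a) (n a)) h hL hLb hB c
  | stat q => exact PT_stat (B := fun a => bitT (L a) (n a)) h hL hLb hB q

end Vale.Agent.P330.S.H175
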