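import Vale.Agent.P330.S.H175.Tup

/-!
The hard-wired bits of the network of the concrete machine, as functions of numbers, and their
polynomial time computability.
-/

namespace Vale.Agent.P330.S.H175

open Finset Vale.Agent.Lib.PolyTime Mach

variable {r : ℕ}

theorem prod_ite_one {κ : Type*} [Fintype κ] (b : κ → Bool) [Decidable (∀ i, b i = true)] :
    (∏ i, if b i = true then (1 : ZMod 2) else 0) = if ∀ i, b i = true then 1 else 0 := by
  by_cases h : ∀ i, b i = true
  · rw [if_pos h]
    exact Finset.prod_eq_one fun i _ => by rw [if_pos (h i)]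
  · rw [if_neg h]
    push Not at h
    obtain ⟨i, hi⟩ := h
    exact Finset.prod_eq_zero (mem_univ i) (by rw [if_neg (by simpa using hi)])

section

variable {D : Type*} [DecidableEq D] {L : Fin r → ℕ} [∀ i, NeZero (L i)]

theorem start_aux (hc : Pairwise fun i j => Nat.Coprime (L i) (L j)) {n : ℕ}
    (w : (∀ i, ZMod (L i)) → D) (w' : ℕ → D) (hw : ∀ p < ∏ i, L i, w (pt L p) = w' p)
    (c : Fin n → D) (M : ∀ i, (Fin n → ZMod (L i)) → ZMod 2)
    (B : Fin r → List ℕ → Bool)
    (hB : ∀ i x, M i x = if B i (List.ofFn fun t => (x t).val) = true then 1 else 0) :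
    decide ((∑ j : Fin n → ∀ i, ZMod (L i), if (∀ t, w (j t) = c t) then
      ∏ i, M i (fun t => j t i) else 0) = 1) =
    parity (tups (∏ i, L i) n) (fun l => decide (∀ t : Fin n, decide (w' (l.getD t 0) = c t) = true)
      && decide (∀ i, B i (l.map (· % L i)) = true)) := by
  rw [parity_tups (n := n) (Q := ∏ i, L i)
    (fun l => decide (∀ t : Fin n, decide (w' (l.getD t 0) = c t) = true) &&
      decide (∀ i, B i (l.map (· % L i)) = true))
    (fun j => if (∀ t, w (pt L (j t)) = c t) then
      ∏ i, (M i fun t => pt L (j t) i) else 0)]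
  · rw [decide_eq_decide]
    rw [← (Equiv.piCongrRight fun _ : Fin n => posEquiv L (fun i => NeZero.ne _) hc).sum_comp]
    exact Iff.rfl
  · intro j
    simp only [Bool.and_eq_true, decide_eq_true_eq]
    have e1 : (∀ t, w (pt L (j t)) = c t) ↔
        ∀ t : Fin n, w' ((List.ofFn fun t => (j t : ℕ)).getD t 0) = c t := by
      refine forall_congr' fun t => ?_
      rw [hw _ (j t).2]
      have : (List.ofFn fun t => (j t : ℕ)).getD t 0 = j t := by
        rw [List.getD_eq_getElem?_getD, List.getElem?_ofFn]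
        simp
      rw [this]
    have e2 : ∏ i, (M i fun t => pt L (j t) i) =
        if ∀ i, B i ((List.ofFn fun t => (j t : ℕ)).map (· % L i)) = true then 1 else 0 := by
      rw [← prod_ite_one (fun i => B i ((List.ofFn fun t => (j t : ℕ)).map (· % L i)))]
      refine Finset.prod_congr rfl fun i _ => ?_
      rw [hB]
      have : (List.ofFn fun t => (j t : ℕ)).map (· % L i) =
          List.ofFn fun t => (pt L (j t) i).val := by
        rw [List.map_ofFn]
        congr 1
        funext t
        show (j t : ℕ) % L i = ((j t : ℕ) : ZMod (L i)).val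
        rw [ZMod.val_natCast]
      rw [this]
    by_cases h1 : ∀ t, w (pt L (j t)) = c t
    · rw [if_pos h1, e2]
      by_cases h2 : ∀ i, B i ((List.ofFn fun t => (j t : ℕ)).map (· % L i)) = true
      · rw [if_pos h2, if_pos ⟨e1.1 h1, h2⟩]
      · rw [if_neg h2, if_neg fun h3 => h2 h3.2]
    · rw [if_neg h1, if_neg fun h3 => h1 (e1.2 h3.1)]

theorem stat_aux (hc : Pairwise fun i j => Nat.Coprime (L i) (L j))
    (w : (∀ i, ZMod (L i)) → D) (w' : ℕ → D) (hw : ∀ p < ∏ i, L i, w (pt L p) = w' p)
    (q : D) (M : ∀ i, (Fin 5 → ZMod (L i)) → ZMod 2)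
    (B : Fin r → List ℕ → Bool)
    (hB : ∀ i x, M i x = if B i (List.ofFn fun t => (x t).val) = true then 1 else 0) :
    decide ((∑ j : ∀ i, ZMod (L i), if w j = q then
      ∏ i, M i (fun u => if u = 0 then j i else if u = 1 then (((0 : Fin 5) : ℕ) : ZMod (L i)) else 0)
      else 0) = 1) =
    parity (List.range (∏ i, L i)) (fun p => decide (w' p = q)
      && decide (∀ i, B i [p % L i, 0, 0, 0, 0] = true)) := by
  rw [parity_range (Q := ∏ i, L i)
    (fun p => decide (w' p = q) && decide (∀ i, B i [p % L i, 0, 0, 0, 0] = true))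
    (fun j => if w (pt L j) = q then
      ∏ i, M i (fun u => if u = 0 then pt L j i else
        if u = 1 then (((0 : Fin 5) : ℕ) : ZMod (L i)) else 0) else 0)]
  · rw [decide_eq_decide]
    rw [← (posEquiv L (fun i => NeZero.ne _) hc).sum_comp]
    exact Iff.rfl
  · intro j
    simp only [Bool.and_eq_true, decide_eq_true_eq]
    rw [hw _ j.2]
    have e2 : ∏ i, M i (fun u => if u = 0 then pt L j i else
        if u = 1 then (((0 : Fin 5) : ℕ) : ZMod (L i)) else 0) =
        if ∀ i, B i [(j : ℕ) % L i, 0, 0, 0, 0] = true then 1 else 0 := by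
      rw [← prod_ite_one (fun i => B i [(j : ℕ) % L i, 0, 0, 0, 0])]
      refine Finset.prod_congr rfl fun i _ => ?_
      rw [hB]
      have h0 : ∀ t : Fin 5, ((if t = 0 then pt L (j : ℕ) i else
          if t = 1 then (((0 : Fin 5) : ℕ) : ZMod (L i)) else 0) : ZMod (L i)).val =
          if t = 0 then (j : ℕ) % L i else 0 := by
        intro t
        by_cases ht : t = 0
        · rw [if_pos ht, if_pos ht]
          show ((j : ℕ) : ZMod (L i)).val = _
          rw [ZMod.val_natCast]
        · rw [if_neg ht, if_neg ht]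
          by_cases ht1 : t = 1
          · rw [if_pos ht1]
            show ((0 : ℕ) : ZMod (L i)).val = 0
            rw [Nat.cast_zero, ZMod.val_zero]
          · rw [if_neg ht1, ZMod.val_zero]
      have h1 : (List.ofFn fun t : Fin 5 => ((if t = 0 then pt L (j : ℕ) i else
          if t = 1 then (((0 : Fin 5) : ℕ) : ZMod (L i)) else 0) : ZMod (L i)).val) =
          [(j : ℕ) % L i, 0, 0, 0, 0] := by
        simp only [h0]
        rfl
      rw [h1]
    by_cases h1 : w' j = q
    · rw [if_pos h1, e2]
      by_cases h2 : ∀ i, B i [(j : ℕ) % L i, 0, 0, 0, 0] = true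
      · rw [if_pos h2, if_pos ⟨h1, h2⟩]
      · rw [if_neg h2, if_neg fun h3 => h2 h3.2]
    · rw [if_neg h1, if_neg fun h3 => h1 h3.1]

end

/-- The hard-wired bit `start c`; `B i l` is the bit with the index `l` of the block `i` of the
table argument, `Q = ∏ i, L i`. -/
noncomputable def startN (P : Prm) (Q : ℕ) (L : Fin r → ℕ) (B : Fin r → List ℕ → Bool)
    (c : Fin 5 → Cell) : Bool :=
  parity (tups Q 5) fun l => decide (∀ t : Fin 5, decide (P.w0 (l.getD t 0) = c t) = true) &&
    decide (∀ i, B i (l.map (· % L i)) = true)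

/-- The hard-wired bit `stat q`. -/
noncomputable def statN (P : Prm) (Q : ℕ) (L : Fin r → ℕ) (B : Fin r → List ℕ → Bool) (q : St) :
    Bool :=
  parity (List.range Q) fun p => decide (P.st p = q) && decide (∀ i, B i [p % L i, 0, 0, 0, 0] = true)

theorem cb_start {P : Prm} {L : Fin r → ℕ} (h : Good P L) (ω : (mkInst P L h).Site)
    (B : Fin r → List ℕ → Bool)
    (hB : ∀ i (x : Fin 5 → ZMod (L i)), (ω.1 i x : ZMod 2) =
      if B i (List.ofFn fun t => (x t).val) = true then 1 else 0) (c : Fin 5 → Cell) :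
    (mkInst P L h).cb (.start c) ω = startN P (∏ i, L i) L B c := by
  have : ∀ i, NeZero (L i) := fun i => ⟨h.ne_zero i⟩
  exact start_aux (D := Cell) h.cop (mkInst P L h).w0 P.w0 (fun p hp => mkInst_w0 h hp) c ω.1 B hB

theorem cb_stat {P : Prm} {L : Fin r → ℕ} (h : Good P L) (ω : (mkInst P L h).Site)
    (B : Fin r → List ℕ → Bool)
    (hB : ∀ i (x : Fin 5 → ZMod (L i)), (ω.1 i x : ZMod 2) =
      if B i (List.ofFn fun t => (x t).val) = true then 1 else 0) (q : St) :
    (mkInst P L h).cb (.stat q) ω = statN P (∏ i, L i) L B q := by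
  have : ∀ i, NeZero (L i) := fun i => ⟨h.ne_zero i⟩
  exact stat_aux (D := St) h.cop (mkInst P L h).stat P.st (fun p hp => mkInst_stat h hp) q ω.1 B hB

end Vale.Agent.P330.S.H175
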