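import Vale.Agent.P330.S.H175.Off
import Vale.Agent.P330.S.NumRdPT

/-!
The hard-wired bits at the sites, as functions of the numbers of the sites; the concrete instances
as a family computable in polynomial time.
-/

namespace Vale.Agent.P330.S.H175

open Finset Vale.Agent.Lib.PolyTime Mach

variable {r : ℕ} {A : Set Word} {α β γ : Type*} [Enc α] [Enc β] [Enc γ]

/-- The bit with the index `l` of the block `i` of the table argument of the site `n`. -/
noncomputable def bitL {P : Prm} {L : Fin r → ℕ} (h : Good P L) (n : ℕ) (i : Fin r) (l : List ℕ) :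
    Bool :=
  (mkInst P L h).bitN (n / 2 ^ (mkInst P L h).e) i fun t => l.getD t 0

/-- The hard-wired bits at the sites, as functions of the numbers of the sites. -/
noncomputable def cbN {P : Prm} {L : Fin r → ℕ} (h : Good P L) (κ : CB spec) (n : ℕ) : Bool :=
  match κ with
  | .start c => startN P (∏ i, L i) L (bitL h n) c
  | .stat q => statN P (∏ i, L i) L (bitL h n) q

theorem cbN_num {P : Prm} {L : Fin r → ℕ} (h : Good P L) (κ : CB spec) (ω : (mkInst P L h).Site) :
    cbN h κ ((mkInst P L h).num ω) = (mkInst P L h).cb κ ω := by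
  have hB : ∀ i (x : Fin 5 → ZMod (L i)), (ω.1 i x : ZMod 2) =
      if bitL h ((mkInst P L h).num ω) i (List.ofFn fun t => (x t).val) = true then 1 else 0 := by
    intro i x
    unfold bitL
    rw [Inst.num_div, Inst.bitN_numV]
    have e : (fun t : Fin 5 => (((List.ofFn fun t => (x t).val).getD t 0 : ℕ) : ZMod (L i))) = x := by
      have : NeZero (L i) := ⟨h.ne_zero i⟩
      funext t
      have : (List.ofFn fun t => (x t).val).getD t 0 = (x t).val := by
        rw [List.getD_eq_getElem?_getD, List.getElem?_ofFn]
        simp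
      rw [this]
      exact ZMod.natCast_zmod_val _
    have key := zmod2_eq (ω.1 i x)
    rw [key]
    have e2 : (decide ((ω.1 i fun t : Fin 5 =>
        (((List.ofFn fun t => (x t).val).getD t 0 : ℕ) : ZMod (L i))) = (1 : ZMod 2)) = true) ↔
        ω.1 i x = 1 := by
      rw [decide_eq_true_eq, e]
    exact if_congr e2.symm rfl rfl
  cases κ with
  | start c => exact (cb_start h ω _ hB c).symm
  | stat q => exact (cb_stat h ω _ hB q).symm

variable {P : α → Prm} {L : α → Fin r → ℕ} (hG : ∀ a, Good (P a) (L a))

/-- The family of the concrete instances. -/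
theorem ptInst (h : PrmPT A P) (hL : ∀ i, PT A (fun a => L a i))
    (hV : PBd (fun a => 2 ^ ∑ i, L a i ^ 5)) : PTInst A (fun a => mkInst (P a) (L a) (hG a)) where
  L := hL
  V := hV
  off o i := (PT_off h (hL i) o).congr fun a => by
    have : NeZero (L a i) := ⟨(hG a).ne_zero i⟩
    exact (off_val (P a) (L a) i o).symm

/-- **Hard-wired bits in polynomial time.** -/
theorem PT_cbN (h : PrmPT A P) (hL : ∀ i, PT A (fun a => L a i))
    (hV : PBd (fun a => 2 ^ ∑ i, L a i ^ 5)) (κ : CB spec) {n : α → ℕ} (hn : PT A n) :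
    PT A (fun a => cbN (hG a) κ (n a)) := by
  have hI := ptInst hG h hL hV
  have hLb : ∀ i, PBd (fun a => L a i) := hI.PBd_L
  have hI' : PTInst A (fun x : α × List ℕ => mkInst (P x.1) (L x.1) (hG x.1)) := hI.comp PT.fst'
  have hB : ∀ i, PT A (fun x : α × List ℕ => bitL (hG x.1) (n x.1) i x.2) := fun i =>
    hI'.PT_bitN (PT.div (hn.comp PT.fst') hI'.PT_V) fun t =>
      PT.getD PT.snd' (PT.const _) (PT.const 0)
  cases κ with
  | start c => exact PT_start (B := fun a => bitL (hG a) (n a)) h hL hLb hB c
  | stat q => exact PT_stat (B := fun a => bitL (hG a) (n a)) h hL hLb hB q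

end Vale.Agent.P330.S.H175
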