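import Vale.Agent.P330.S.H175.CbPT

/-!
The values of the offsets, as numbers, and their polynomial time computability.
-/

namespace Vale.Agent.P330.S.H175

open Finset Vale.Agent.Lib.PolyTime Mach

variable {r : ℕ} {A : Set Word} {α β γ : Type*} [Enc α] [Enc β] [Enc γ]

/-- The value of an offset modulo `l`. -/
def offN (P : Prm) (l : ℕ) : Off → ℕ
  | .o0 => 0
  | .p1 => 1 % l
  | .m1 => (l - 1 % l) % l
  | .mW => (l - P.W % l) % l
  | .far => (P.R - 1) * P.W % l
  | .pR => P.R * P.W % l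
  | .mR => (l - P.R * P.W % l) % l

theorem val_neg_cast (l m : ℕ) [NeZero l] : (-(m : ZMod l)).val = (l - m % l) % l := by
  rw [ZMod.neg_val', ZMod.val_natCast]

theorem off_val (P : Prm) (L : Fin r → ℕ) (i : Fin r) [NeZero (L i)] (o : Off) :
    (P.off L o i).val = offN P (L i) o := by
  cases o
  · show (((0 : ℤ) : ZMod (L i))).val = 0
    rw [Int.cast_zero, ZMod.val_zero]
  · show (((1 : ℤ) : ZMod (L i))).val = 1 % L i
    rw [Int.cast_one, ← Nat.cast_one, ZMod.val_natCast]
  · show ((((-1 : ℤ)) : ZMod (L i))).val = _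
    have h := val_neg_cast (L i) 1
    rw [Nat.cast_one] at h
    rw [Int.cast_neg, Int.cast_one, h]
    rfl
  · show (((-(P.W : ℤ) : ℤ) : ZMod (L i))).val = _
    rw [Int.cast_neg, Int.cast_natCast, val_neg_cast]
    rfl
  · show ((((((P.R - 1) * P.W : ℕ) : ℤ)) : ZMod (L i))).val = _
    rw [Int.cast_natCast, ZMod.val_natCast]
    rfl
  · show ((((((P.R * P.W : ℕ) : ℤ))) : ZMod (L i))).val = _
    rw [Int.cast_natCast, ZMod.val_natCast]
    rfl
  · show (((-(((P.R * P.W : ℕ) : ℤ)) : ℤ) : ZMod (L i))).val = _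
    rw [Int.cast_neg, Int.cast_natCast, val_neg_cast]
    rfl

theorem PT_off {P : α → Prm} (h : PrmPT A P) {l : α → ℕ} (hl : PT A l) (o : Off) :
    PT A (fun a => offN (P a) (l a) o) := by
  have hneg : ∀ {f : α → ℕ}, PT A f → PT A (fun a => (l a - f a % l a) % l a) := fun hf =>
    PT.mod (PT.sub hl (PT.mod hf hl)) hl
  cases o
  · exact PT.const 0
  · exact PT.mod (PT.const 1) hl
  · exact hneg (PT.const 1)
  · exact hneg h.W
  · exact PT.mod (PT.mul (PT.sub h.R (PT.const 1)) h.W) hl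
  · exact PT.mod (PT.mul h.R h.W) hl
  · exact hneg (PT.mul h.R h.W)

end Vale.Agent.P330.S.H175
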