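import Vale.Agent.P330.S.Mach

/-!
Positions of the concrete machine: the numbers `0, …, ∏ L i - 1` and the elements of
`∏ ZMod (L i)` correspond to each other.
-/

namespace Vale.Agent.P330.S.Mach

open Finset

variable {r : ℕ} {L : Fin r → ℕ}

theorem pt_apply (L : Fin r → ℕ) (p : ℕ) (i : Fin r) : pt L p i = (p : ZMod (L i)) := rfl

theorem pt_inj (hc : Pairwise fun i j => Nat.Coprime (L i) (L j)) {p q : ℕ}
    (hp : p < ∏ i, L i) (hq : q < ∏ i, L i) (h : pt L p = pt L q) : p = q := by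
  have h1 : (p : ℤ) = q := by
    apply eq_of_cast_eq hc (fun i => by
      have := congrFun h i
      simpa [pt] using this)
    rw [abs_lt]
    constructor <;> omega
  exact_mod_cast h1

/-- The positions, as numbers. -/
noncomputable def posEquiv (L : Fin r → ℕ) (h0 : ∀ i, L i ≠ 0)
    (hc : Pairwise fun i j => Nat.Coprime (L i) (L j)) :
    Fin (∏ i, L i) ≃ (∀ i, ZMod (L i)) :=
  haveI : ∀ i, NeZero (L i) := fun i => ⟨h0 i⟩
  Equiv.ofBijective (fun p : Fin (∏ i, L i) => pt L p) (by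
    rw [Fintype.bijective_iff_injective_and_card]
    refine ⟨fun p q h => Fin.ext (pt_inj hc p.2 q.2 h), ?_⟩
    rw [Fintype.card_fin, Fintype.card_pi]
    exact Finset.prod_congr rfl fun i _ => (ZMod.card (L i)).symm)

theorem posEquiv_apply (h0 : ∀ i, L i ≠ 0) (hc : Pairwise fun i j => Nat.Coprime (L i) (L j))
    (p : Fin (∏ i, L i)) : posEquiv L h0 hc p = pt L p := rfl

theorem posn_pt (hc : Pairwise fun i j => Nat.Coprime (L i) (L j)) {B p : ℕ}
    (hB : B < ∏ i, L i) (hp : p < ∏ i, L i) :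
    posn L B (pt L p) = if p ≤ B then p else B + 1 := by
  classical
  unfold posn
  by_cases h : p ≤ B
  · have hex : ∃ q, q ≤ B ∧ pt L q = pt L p := ⟨p, h, rfl⟩
    rw [dif_pos hex, if_pos h]
    obtain ⟨h1, h2⟩ := Nat.find_spec hex
    exact pt_inj hc (h1.trans_lt hB) hp h2
  · rw [if_neg h, dif_neg]
    rintro ⟨q, hq, hq2⟩
    exact h ((pt_inj hc (hq.trans_lt hB) hp hq2) ▸ hq)

theorem Good.ne_zero {P : Prm} (h : Good P L) (i : Fin r) : L i ≠ 0 := by
  have := h.L5 i
  omega

theorem Good.RW_lt {P : Prm} (h : Good P L) : P.R * P.W < ∏ i, L i := by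
  have := h.big
  omega

theorem Good.four_le {P : Prm} (h : Good P L) : 4 ≤ P.R * P.W := by
  have := Nat.mul_le_mul h.R2 h.W2
  omega

theorem Good.W_lt {P : Prm} (h : Good P L) : P.W < P.R * P.W := by
  have h1 := h.R2
  have h2 := h.W2
  nlinarith

theorem Prm.st_dead {P : Prm} {p : ℕ} (hW : P.W ≤ P.R * P.W) (h : P.R * P.W < p) :
    P.st p = St.deadSt := by
  unfold Prm.st
  rw [if_neg (by omega), if_neg (by omega), if_neg (by omega)]

/-- The static content of the position `p`. -/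
theorem Good.st_posn {P : Prm} (h : Good P L) {p : ℕ} (hp : p < ∏ i, L i) :
    P.st (posn L (P.R * P.W) (pt L p)) = P.st p := by
  rw [posn_pt h.cop h.RW_lt hp]
  by_cases hle : p ≤ P.R * P.W
  · rw [if_pos hle]
  · rw [if_neg hle, Prm.st_dead h.W_lt.le (by omega), Prm.st_dead h.W_lt.le (by omega)]

/-- The start configuration at the position `p`. -/
theorem Good.w0_posn {P : Prm} (h : Good P L) {p : ℕ} (hp : p < ∏ i, L i) :
    P.w0 (posn L (P.R * P.W) (pt L p)) = P.w0 p := by
  have hs := h.st_posn hp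
  have hW := h.W_lt
  rw [posn_pt h.cop h.RW_lt hp] at hs ⊢
  unfold Prm.w0
  rw [hs]
  by_cases hle : p ≤ P.R * P.W
  · rw [if_pos hle]
  · rw [if_neg hle]
    have e1 : ¬ (P.R * P.W + 1 = P.W) := by omega
    have e2 : ¬ (p = P.W) := by omega
    have e3 : ¬ (P.R * P.W + 1 < P.W) := by omega
    have e4 : ¬ (p < P.W) := by omega
    simp only [e1, e2, e3, e4]

theorem mkInst_stat {P : Prm} (h : Good P L) {p : ℕ} (hp : p < ∏ i, L i) :
    (mkInst P L h).stat (pt L p) = P.st p := h.st_posn hp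

theorem mkInst_w0 {P : Prm} (h : Good P L) {p : ℕ} (hp : p < ∏ i, L i) :
    (mkInst P L h).w0 (pt L p) = P.w0 p := h.w0_posn hp

end Vale.Agent.P330.S.Mach
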