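import Vale.Agent.P330.S.H175.Pos
import Vale.Agent.Lib.PolyTime.Lists2
import Vale.Agent.Lib.PolyTime.Lists3
import Vale.Agent.Lib.PolyTime.NatArith2
import Vale.Agent.Lib.PolyTime.Bitwise

/-!
Sums over tuples of numbers, as lists; parities.
-/

namespace Vale.Agent.P330.S.H175

open Finset Vale.Agent.Lib.PolyTime

/-- The `n`-tuples of numbers less than `Q`. -/
def tups (Q : ℕ) : ℕ → List (List ℕ)
  | 0 => [[]]
  | n + 1 => (List.range Q).flatMap fun p => (tups Q n).map (p :: ·)

theorem sum_range_map {M : Type*} [AddCommMonoid M] (Q : ℕ) (f : ℕ → M) :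
    ((List.range Q).map f).sum = ∑ p : Fin Q, f p := by
  rw [← Finset.sum_range (f := f)]
  rfl

theorem sum_flatMap {M α β : Type*} [AddCommMonoid M] (l : List α) (g : α → List β) (G : β → M) :
    ((l.flatMap g).map G).sum = (l.map fun a => ((g a).map G).sum).sum := by
  induction l with
  | nil => simp
  | cons a l ih => simp [ih]

theorem sum_tups {M : Type*} [AddCommMonoid M] (Q : ℕ) : ∀ (n : ℕ) (G : List ℕ → M),
    ∑ j : Fin n → Fin Q, G (List.ofFn fun t => (j t : ℕ)) = ((tups Q n).map G).sum
  | 0, G => by simp [tups]
  | n + 1, G => by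
    rw [tups, sum_flatMap, sum_range_map]
    rw [← (Fin.consEquiv fun _ => Fin Q).sum_comp, Fintype.sum_prod_type]
    refine Finset.sum_congr rfl fun p _ => ?_
    rw [List.map_map, ← sum_tups Q n]
    refine Finset.sum_congr rfl fun j _ => ?_
    show G _ = G _
    congr 1
    rw [List.ofFn_succ]
    rfl

/-- The parity of the number of elements of a list with a property. -/
def parity {α : Type*} (l : List α) (f : α → Bool) : Bool := decide ((l.filter f).length % 2 = 1)

theorem sum_ite_eq_length {α : Type*} (l : List α) (f : α → Bool) :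
    (l.map fun a => if f a = true then (1 : ZMod 2) else 0).sum = ((l.filter f).length : ZMod 2) := by
  induction l with
  | nil => simp
  | cons a l ih =>
    rw [List.map_cons, List.sum_cons, ih, List.filter_cons]
    cases f a
    · simp
    · simp only [if_true, List.length_cons, Nat.cast_add, Nat.cast_one]
      ring

theorem parity_iff {α : Type*} (l : List α) (f : α → Bool) :
    parity l f = decide ((l.map fun a => if f a = true then (1 : ZMod 2) else 0).sum = 1) := by
  unfold parity
  rw [sum_ite_eq_length, decide_eq_decide]
  generalize (l.filter f).length = n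
  constructor
  · intro h
    have := (ZMod.natCast_eq_natCast_iff n 1 2).2 h
    simpa using this
  · intro h
    have h1 : ((n : ℕ) : ZMod 2) = ((1 : ℕ) : ZMod 2) := by simpa using h
    exact (ZMod.natCast_eq_natCast_iff n 1 2).1 h1

/-- Parity over tuples of numbers and sums over functions. -/
theorem parity_tups {n Q : ℕ} (f : List ℕ → Bool) (F : (Fin n → Fin Q) → ZMod 2)
    (h : ∀ j, F j = if f (List.ofFn fun t => (j t : ℕ)) = true then 1 else 0) :
    parity (tups Q n) f = decide ((∑ j, F j) = 1) := by
  rw [parity_iff, ← sum_tups]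
  congr 1
  rw [Finset.sum_congr rfl fun j _ => h j]

theorem parity_range {Q : ℕ} (f : ℕ → Bool) (F : Fin Q → ZMod 2)
    (h : ∀ j, F j = if f j = true then 1 else 0) :
    parity (List.range Q) f = decide ((∑ j, F j) = 1) := by
  rw [parity_iff, sum_range_map]
  congr 1
  rw [Finset.sum_congr rfl fun j _ => h j]

theorem length_tups (Q : ℕ) : ∀ n, ∀ l ∈ tups Q n, l.length = n
  | 0, l, h => by
    simp only [tups, List.mem_singleton] at h
    simp [h]
  | n + 1, l, h => by
    simp only [tups, List.mem_flatMap, List.mem_map] at h
    obtain ⟨p, -, l', h', rfl⟩ := h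
    simp [length_tups Q n l' h']

/-! ### Polynomial time -/

variable {A : Set Word} {α β γ : Type*} [Enc α] [Enc β] [Enc γ]

theorem PT_tups {Q : α → ℕ} (hQ : PT A Q) (hb : PBd Q) : ∀ n, PT A (fun a => tups (Q a) n)
  | 0 => PT.const _
  | n + 1 => by
    have ih := PT_tups hQ hb n
    exact PT.flatMap (f := fun a p => (tups (Q a) n).map (p :: ·)) (PT.range hQ hb)
      (PT.map (f := fun (x : α × ℕ) l => x.2 :: l) (ih.comp PT.fst')
        (PT.cons PT.fst'.snd PT.snd'))

theorem PT_parity {l : α → List γ} {f : α → γ → Bool} (hl : PT A l)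
    (hf : PT A (fun p : α × γ => f p.1 p.2)) : PT A (fun a => parity (l a) (f a)) :=
  PT.odd (PT.filter hl hf).length

/-- Conjunction over a finite type. -/
theorem PT_forall {κ : Type*} [Fintype κ] {f : κ → α → Bool}
    [inst : ∀ a, Decidable (∀ k, f k a = true)] (h : ∀ k, PT A (f k)) :
    PT A (fun a => decide (∀ k, f k a = true)) := by
  classical
  have key : ∀ s : Finset κ, PT A (fun a => decide (∀ k ∈ s, f k a = true)) := by
    intro s
    induction s using Finset.induction_on with
    | empty => exact (PT.const true).congr fun a => by simp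
    | insert k s hk ih =>
      exact ((h k).and ih).congr fun a => by
        rw [Bool.eq_iff_iff]
        simp
  exact (key Finset.univ).congr fun a => by simp

/-- Disjunction over a finite type. -/
theorem PT_exists {κ : Type*} [Fintype κ] {f : κ → α → Bool}
    [inst : ∀ a, Decidable (∃ k, f k a = true)] (h : ∀ k, PT A (f k)) :
    PT A (fun a => decide (∃ k, f k a = true)) := by
  classical
  exact ((PT_forall fun k => (h k).not).not).congr fun a => by
    rw [Bool.eq_iff_iff]
    simp

/-- Product over a finite set. -/
theorem PT_prod {κ : Type*} {f : κ → α → ℕ} (h : ∀ k, PT A (f k)) (s : Finset κ) :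
    PT A (fun a => ∏ k ∈ s, f k a) := by
  classical
  induction s using Finset.induction_on with
  | empty => exact (PT.const 1).congr fun a => by simp
  | insert k s hk ih => exact (PT.mul (h k) ih).congr fun a => by rw [Finset.prod_insert hk]

theorem PBd_prod {κ : Type*} {f : κ → α → ℕ} (h : ∀ k, PBd (f k)) (s : Finset κ) :
    PBd (fun a => ∏ k ∈ s, f k a) := by
  classical
  induction s using Finset.induction_on with
  | empty => exact (PBd.const 1).mono fun a => by simp
  | insert k s hk ih => exact (PBd.mul (h k) ih).mono fun a => by rw [Finset.prod_insert hk]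

/-- Sum over a finite set. -/
theorem PT_sum {κ : Type*} {f : κ → α → ℕ} (h : ∀ k, PT A (f k)) (s : Finset κ) :
    PT A (fun a => ∑ k ∈ s, f k a) := by
  classical
  induction s using Finset.induction_on with
  | empty => exact (PT.const 0).congr fun a => by simp
  | insert k s hk ih => exact (PT.add (h k) ih).congr fun a => by rw [Finset.sum_insert hk]

theorem PBd_sum {κ : Type*} {f : κ → α → ℕ} (h : ∀ k, PBd (f k)) (s : Finset κ) :
    PBd (fun a => ∑ k ∈ s, f k a) := by
  classical
  induction s using Finset.induction_on with
  | empty => exact (PBd.const 0).mono fun a => by simp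
  | insert k s hk ih => exact (PBd.add (h k) ih).mono fun a => by rw [Finset.sum_insert hk]

theorem PT_beq {f g : α → Bool} (hf : PT A f) (hg : PT A g) :
    PT A (fun a => decide (f a = g a)) :=
  (PT.xor hf hg).not.congr fun a => by cases f a <;> cases g a <;> rfl

theorem PT_decide_bool {f : α → Bool} (hf : PT A f) : PT A (fun a => decide (f a = true)) :=
  hf.congr fun a => by cases f a <;> rfl

end Vale.Agent.P330.S.H175
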